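import Mathlib.Analysis.InnerProductSpace.Calculus
import Mathlib.Analysis.SpecialFunctions.Sqrt
import Mathlib.Analysis.Calculus.InverseFunctionTheorem.FDeriv
import Mathlib.Analysis.Calculus.Deriv.Inv
import Mathlib.Analysis.Calculus.Deriv.Pow
import Mathlib.Tactic.Module
import Mathlib.LinearAlgebra.FiniteDimensional.Basic

/-! # The Coulomb force: a global quadratic bound and the contact families -/

namespace Vale.Agent.P121

open scoped RealInnerProductSpace NNReal Topology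
open Filter Set Metric

variable {V : Type*} [NormedAddCommGroup V] [InnerProductSpace ℝ V]

/-- The gradient of `v ↦ ‖v‖⁻¹`. -/
noncomputable def force (v : V) : V := -((‖v‖ ^ 3)⁻¹ • v)

lemma force_neg (v : V) : force (-v) = -force v := by
  simp [force]

lemma inv_norm_ge {v w : V} (hv : v ≠ 0) (hw : w ≠ 0) :
    ‖v‖⁻¹ + ⟪force v, w - v⟫ - ‖w - v‖ ^ 2 / (2 * ‖v‖ ^ 3) ≤ ‖w‖⁻¹ := by
  have ha : 0 < ‖v‖ := norm_pos_iff.2 hv
  have hb : 0 < ‖w‖ := norm_pos_iff.2 hw
  have h1 : ⟪force v, w - v⟫ = -((‖v‖ ^ 3)⁻¹ * ⟪v, w - v⟫) := by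
    simp [force, inner_smul_left]
  have h2 : ‖w‖ ^ 2 = ‖v‖ ^ 2 + 2 * ⟪v, w - v⟫ + ‖w - v‖ ^ 2 := by
    have := norm_add_sq_real v (w - v)
    rwa [add_sub_cancel] at this
  rw [h1]
  set a := ‖v‖
  set b := ‖w‖
  set t := ⟪v, w - v⟫
  set h := ‖w - v‖
  have key : 0 ≤ (b - a) ^ 2 * (b + 2 * a) := by positivity
  have e : b⁻¹ - (a⁻¹ + -((a ^ 3)⁻¹ * t) - h ^ 2 / (2 * a ^ 3))
      = (b - a) ^ 2 * (b + 2 * a) / (2 * a ^ 3 * b) := by
    field_simp
    linear_combination -b * h2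
  have : 0 ≤ (b - a) ^ 2 * (b + 2 * a) / (2 * a ^ 3 * b) := by positivity
  linarith [e ▸ this]

/-- The derivative of `force` at `v`. -/
noncomputable def forceDeriv (v : V) : V →L[ℝ] V :=
  (‖v‖ ^ 3)⁻¹ •
    ((3 * (‖v‖ ^ 2)⁻¹) • (innerSL ℝ v).smulRight v - ContinuousLinearMap.id ℝ V)

lemma forceDeriv_apply (v h : V) :
    forceDeriv v h = (‖v‖ ^ 3)⁻¹ • ((3 * (‖v‖ ^ 2)⁻¹) • (⟪v, h⟫ • v) - h) := by
  simp [forceDeriv]

lemma hasStrictFDerivAt_force {v : V} (hv : v ≠ 0) :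
    HasStrictFDerivAt (force : V → V) (forceDeriv v) v := by
  have ha : 0 < ‖v‖ := norm_pos_iff.2 hv
  have hn : HasStrictFDerivAt (fun u : V => √(‖u‖ ^ 2))
      ((1 / (2 * √(‖v‖ ^ 2))) • (2 • innerSL ℝ v)) v :=
    (hasStrictFDerivAt_norm_sq v).sqrt (by positivity)
  simp only [Real.sqrt_sq (norm_nonneg _)] at hn
  have hp : HasStrictDerivAt (fun t : ℝ => (t ^ 3)⁻¹)
      (-((3 : ℕ) * ‖v‖ ^ 2 * 1) / (‖v‖ ^ 3) ^ 2) ‖v‖ :=
    by
    simpa [id, Function.comp_def, div_eq_mul_inv, mul_comm] using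
      HasStrictDerivAt.comp (h := fun t : ℝ => t ^ 3) ‖v‖
        (hasStrictDerivAt_inv (pow_ne_zero 3 ha.ne')) (hasStrictDerivAt_pow 3 ‖v‖)
  have hc := hp.comp_hasStrictFDerivAt v hn
  have h := (hc.smul (hasStrictFDerivAt_id v)).neg
  refine HasStrictFDerivAt.congr_fderiv (h.congr_of_eventuallyEq ?_) ?_
  · exact Eventually.of_forall fun u => rfl
  · ext u
    simp only [forceDeriv_apply]
    simp
    match_scalars <;> field_simp <;> ring

/-- The linearised force at a unit vector. -/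
noncomputable def unitHess (e h : V) : V := (3 * ⟪e, h⟫) • e - h

lemma forceDeriv_unit {e : V} (he : ‖e‖ = 1) (h : V) : forceDeriv e h = unitHess e h := by
  simp [forceDeriv_apply, unitHess, he, smul_smul]

lemma forceDeriv_neg_unit {e : V} (he : ‖e‖ = 1) (h : V) :
    forceDeriv (-e) h = unitHess e h := by
  simp [forceDeriv_apply, unitHess, he, smul_smul]

lemma forceDeriv_two {e : V} (he : ‖e‖ = 1) (h : V) :
    forceDeriv ((2 : ℝ) • e) h = (1 / 8 : ℝ) • unitHess e h := by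
  simp [forceDeriv_apply, unitHess, he, norm_smul, inner_smul_left, smul_smul]
  match_scalars <;> norm_num <;> ring

/-- The first-order conditions at a triple `(x, y, z)` with quadratic dual potentials. -/
noncomputable def crit (e : V) (q : V × V × V) : V × V :=
  (force (q.1 - q.2.1) + force (q.1 - q.2.2) + (32 : ℝ) • q.1,
    force (q.2.1 - q.1) + force (q.2.1 - q.2.2) + (32 : ℝ) • (q.2.1 - e) + (5 / 4 : ℝ) • e)

lemma crit_base {e : V} (he : ‖e‖ = 1) : crit e (0, e, -e) = 0 := by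
  have h2 : e - -e = (2 : ℝ) • e := by module
  simp only [crit, zero_sub, neg_neg, sub_zero, sub_self, smul_zero, add_zero, h2, Prod.mk_eq_zero]
  constructor
  · simp [force_neg]
  · simp [force, norm_smul, he, smul_smul]
    match_scalars
    norm_num

/-- The derivative of `crit` at the base triple. -/
noncomputable def critDeriv (e : V) : V × V × V →L[ℝ] V × V :=
  let P1 := ContinuousLinearMap.fst ℝ V (V × V)
  let P2 := (ContinuousLinearMap.fst ℝ V V).comp (ContinuousLinearMap.snd ℝ V (V × V))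
  let P3 := (ContinuousLinearMap.snd ℝ V V).comp (ContinuousLinearMap.snd ℝ V (V × V))
  ((forceDeriv (-e)).comp (P1 - P2) + (forceDeriv e).comp (P1 - P3) + (32 : ℝ) • P1).prod
    ((forceDeriv e).comp (P2 - P1) + (forceDeriv ((2 : ℝ) • e)).comp (P2 - P3) + (32 : ℝ) • P2)

lemma hasStrictFDerivAt_crit {e : V} (he : ‖e‖ = 1) :
    HasStrictFDerivAt (crit e) (critDeriv e) (0, e, -e) := by
  have hne : e ≠ 0 := fun h => by simp [h] at he
  have d1 : HasStrictFDerivAt (fun q : V × V × V => q.1)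
      (ContinuousLinearMap.fst ℝ V (V × V)) (0, e, -e) := hasStrictFDerivAt_fst
  have d2 : HasStrictFDerivAt (fun q : V × V × V => q.2.1)
      ((ContinuousLinearMap.fst ℝ V V).comp (ContinuousLinearMap.snd ℝ V (V × V))) (0, e, -e) :=
    ((ContinuousLinearMap.fst ℝ V V).comp
      (ContinuousLinearMap.snd ℝ V (V × V))).hasStrictFDerivAt
  have d3 : HasStrictFDerivAt (fun q : V × V × V => q.2.2)
      ((ContinuousLinearMap.snd ℝ V V).comp (ContinuousLinearMap.snd ℝ V (V × V))) (0, e, -e) :=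
    ((ContinuousLinearMap.snd ℝ V V).comp
      (ContinuousLinearMap.snd ℝ V (V × V))).hasStrictFDerivAt
  have e1 : (0 : V) - e = -e := zero_sub e
  have e2 : (0 : V) - -e = e := by simp
  have e3 : e - (0 : V) = e := sub_zero e
  have e4 : e - -e = (2 : ℝ) • e := by module
  have k1 := HasStrictFDerivAt.comp (g := force) (g' := forceDeriv (-e)) (0, e, -e)
    (by simp only [Pi.sub_apply]; rw [e1]; exact hasStrictFDerivAt_force (neg_ne_zero.2 hne))
    (d1.sub d2)
  have k2 := HasStrictFDerivAt.comp (g := force) (g' := forceDeriv e) (0, e, -e)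
    (by simp only [Pi.sub_apply]; rw [e2]; exact hasStrictFDerivAt_force hne)
    (d1.sub d3)
  have k3 := HasStrictFDerivAt.comp (g := force) (g' := forceDeriv e) (0, e, -e)
    (by simp only [Pi.sub_apply]; rw [e3]; exact hasStrictFDerivAt_force hne)
    (d2.sub d1)
  have k4 := HasStrictFDerivAt.comp (g := force) (g' := forceDeriv ((2 : ℝ) • e)) (0, e, -e)
    (by simp only [Pi.sub_apply]; rw [e4]; exact hasStrictFDerivAt_force (smul_ne_zero two_ne_zero hne))
    (d2.sub d3)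
  exact ((k1.add k2).add (d1.const_smul (32 : ℝ))).prodMk
    (((k3.add k4).add ((d2.sub_const e).const_smul (32 : ℝ))).add_const _)

lemma critDeriv_eq_zero {e : V} (he : ‖e‖ = 1) {d : V × V × V} (h : critDeriv e d = 0)
    (h0 : d.1 = 0 ∨ d.2.1 = 0 ∨ d.2.2 = 0) : d = 0 := by
  obtain ⟨a, b, c⟩ := d
  simp only [critDeriv, ContinuousLinearMap.prod_apply, _root_.add_apply,
    ContinuousLinearMap.comp_apply, _root_.sub_apply,
    ContinuousLinearMap.coe_fst', ContinuousLinearMap.coe_snd', _root_.smul_apply,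
    forceDeriv_unit he, forceDeriv_neg_unit he, forceDeriv_two he, Prod.mk_eq_zero] at h
  obtain ⟨h1, h2⟩ := h
  have hee : ⟪e, e⟫ = 1 := by simp [real_inner_self_eq_norm_sq, he]
  have s1 := congrArg (fun u => ⟪e, u⟫) h1
  have s2 := congrArg (fun u => ⟪e, u⟫) h2
  simp only [unitHess, inner_add_right, inner_sub_right, inner_smul_right, hee,
    inner_zero_right] at s1 s2
  simp only at h0
  have hz : ⟪e, a⟫ = 0 ∧ ⟪e, b⟫ = 0 ∧ ⟪e, c⟫ = 0 := by
    have h0' : ⟪e, a⟫ = 0 ∨ ⟪e, b⟫ = 0 ∨ ⟪e, c⟫ = 0 :=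
      h0.imp (fun h => by simp [h]) (Or.imp (fun h => by simp [h]) (fun h => by simp [h]))
    rcases h0' with h | h | h <;> refine ⟨?_, ?_, ?_⟩ <;> linarith
  obtain ⟨za, zb, zc⟩ := hz
  simp only [unitHess, inner_sub_right, za, zb, zc, sub_self, mul_zero, zero_smul, zero_sub] at h1 h2
  rcases h0 with h0 | h0 | h0
  · subst h0
    have hb : b = 0 := by
      linear_combination (norm := module)
        (246 / 8 : ℝ)⁻¹ • h2 + (-1 / 8 / (246 / 8) : ℝ) • h1
    subst hb
    have hc : c = 0 := by linear_combination (norm := module) h1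
    simp [hc]
  · subst h0
    have ha : a = 0 := by
      linear_combination (norm := module) (22 / 8 : ℝ)⁻¹ • ((1 / 8 : ℝ) • h1 - h2)
    subst ha
    have hc : c = 0 := by linear_combination (norm := module) h1
    simp [hc]
  · subst h0
    have ha : a = 0 := by
      linear_combination (norm := module)
        ((30 * (247 / 8) - 1 : ℝ))⁻¹ • ((247 / 8 : ℝ) • h1 - h2)
    subst ha
    have hb : b = 0 := by linear_combination (norm := module) h1
    simp [hb]

/-- A local inverse of a map with injective strict derivative, and its Lipschitz lower bound. -/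
lemma exists_local_inverse {W : Type*} [NormedAddCommGroup W] [NormedSpace ℝ W]
    [FiniteDimensional ℝ W] {f : W → W} {D : W →L[ℝ] W} {a : W}
    (hf : HasStrictFDerivAt f D a) (hD : ∀ d, D d = 0 → d = 0) :
    ∃ (s : Set W) (C : ℝ≥0) (g : W → W), s ∈ 𝓝 a ∧
      (∀ p ∈ s, ∀ q ∈ s, dist p q ≤ C * dist (f p) (f q)) ∧
      (∀ᶠ w in 𝓝 (f a), g w ∈ s ∧ f (g w) = w ∧ ContinuousAt g w) ∧ g (f a) = a := by
  have : CompleteSpace W := FiniteDimensional.complete ℝ W
  have hinj : Function.Injective D.toLinearMap := by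
    rw [← LinearMap.ker_eq_bot, LinearMap.ker_eq_bot']
    exact hD
  let L : W ≃L[ℝ] W := (LinearEquiv.ofInjectiveEndo D.toLinearMap hinj).toContinuousLinearEquiv
  have hL : (L : W →L[ℝ] W) = D := by ext x; rfl
  rw [← hL] at hf
  obtain ⟨s, has, hso, happ⟩ := hf.approximates_deriv_on_open_nhds
  have hc : Subsingleton W ∨ ‖(L.symm : W →L[ℝ] W)‖₊⁻¹ / 2 < ‖(L.symm : W →L[ℝ] W)‖₊⁻¹ :=
    L.subsingleton_or_nnnorm_symm_pos.imp id fun h => NNReal.half_lt_self (inv_pos.2 h).ne'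
  let T := hf.toOpenPartialHomeomorph f
  refine ⟨s, (‖(L.symm : W →L[ℝ] W)‖₊⁻¹ - ‖(L.symm : W →L[ℝ] W)‖₊⁻¹ / 2)⁻¹, T.symm,
    hso.mem_nhds has, ?_, ?_, ?_⟩
  · intro p hp q hq
    exact (happ.antilipschitz hc).le_mul_dist ⟨p, hp⟩ ⟨q, hq⟩
  · have ht : T.target ∈ 𝓝 (f a) :=
      T.open_target.mem_nhds hf.image_mem_toOpenPartialHomeomorph_target
    have hg : ∀ᶠ w in 𝓝 (f a), T.symm w ∈ s :=
      (T.tendsto_symm hf.mem_toOpenPartialHomeomorph_source).eventually (hso.mem_nhds has)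
    filter_upwards [ht, hg] with w hw hws
    exact ⟨hws, T.right_inv hw, T.continuousAt_symm hw⟩
  · exact T.left_inv hf.mem_toOpenPartialHomeomorph_source

/-- The family of contact triples through a neighbourhood of the origin. -/
theorem exists_family [FiniteDimensional ℝ V] {e : V} (he : ‖e‖ = 1) :
    ∃ (y z : V → V) (ρ : ℝ) (C : ℝ≥0), 0 < ρ ∧
      (∀ x ∈ closedBall (0 : V) ρ, ‖x‖ ≤ 1 / 1000 ∧ ‖y x - e‖ ≤ 1 / 1000 ∧
        ‖z x + e‖ ≤ 1 / 1000 ∧ crit e (x, y x, z x) = 0) ∧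
      ContinuousOn y (closedBall 0 ρ) ∧ ContinuousOn z (closedBall 0 ρ) ∧
      (∀ x ∈ closedBall (0 : V) ρ, ∀ x' ∈ closedBall (0 : V) ρ,
        dist x x' ≤ C * dist (y x) (y x') ∧ dist x x' ≤ C * dist (z x) (z x')) := by
  have hc := hasStrictFDerivAt_crit he
  have hb := crit_base he
  let b : V × V × V := (0, e, -e)
  have d1 : HasStrictFDerivAt (fun q : V × V × V => (q.1, crit e q))
      ((ContinuousLinearMap.fst ℝ V (V × V)).prod (critDeriv e)) b :=
    hasStrictFDerivAt_fst.prodMk hc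
  have d2 : HasStrictFDerivAt (fun q : V × V × V => (q.2.1, crit e q))
      (((ContinuousLinearMap.fst ℝ V V).comp (ContinuousLinearMap.snd ℝ V (V × V))).prod
        (critDeriv e)) b :=
    ((ContinuousLinearMap.fst ℝ V V).comp
      (ContinuousLinearMap.snd ℝ V (V × V))).hasStrictFDerivAt.prodMk hc
  have d3 : HasStrictFDerivAt (fun q : V × V × V => (q.2.2, crit e q))
      (((ContinuousLinearMap.snd ℝ V V).comp (ContinuousLinearMap.snd ℝ V (V × V))).prod
        (critDeriv e)) b :=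
    ((ContinuousLinearMap.snd ℝ V V).comp
      (ContinuousLinearMap.snd ℝ V (V × V))).hasStrictFDerivAt.prodMk hc
  obtain ⟨s1, C1, g, hs1, hl1, hg1, hg1b⟩ := exists_local_inverse d1 (fun d hd => by
    simp [Prod.mk_eq_zero] at hd; exact critDeriv_eq_zero he hd.2 (Or.inl hd.1))
  obtain ⟨s2, C2, g2, hs2, hl2, -, -⟩ := exists_local_inverse d2 (fun d hd => by
    simp [Prod.mk_eq_zero] at hd; exact critDeriv_eq_zero he hd.2 (Or.inr (Or.inl hd.1)))
  obtain ⟨s3, C3, g3, hs3, hl3, -, -⟩ := exists_local_inverse d3 (fun d hd => by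
    simp [Prod.mk_eq_zero] at hd; exact critDeriv_eq_zero he hd.2 (Or.inr (Or.inr hd.1)))
  simp only [b, hb] at hg1 hg1b
  let S := s1 ∩ s2 ∩ s3 ∩ closedBall b (1 / 1000)
  have hS : S ∈ 𝓝 b :=
    inter_mem (inter_mem (inter_mem hs1 hs2) hs3) (closedBall_mem_nhds _ (by norm_num))
  let j : V → V × V × V := fun x => g (x, 0)
  have hj : Continuous (fun x : V => (x, (0 : V × V))) := by fun_prop
  have e0 : ∀ᶠ x in 𝓝 (0 : V),
      g (x, 0) ∈ s1 ∧ ((g (x, 0)).1, crit e (g (x, 0))) = (x, (0 : V × V)) ∧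
        ContinuousAt g (x, 0) :=
    (hj.tendsto 0).eventually hg1
  have hc0 : ContinuousAt j 0 :=
    ContinuousAt.comp (f := fun x : V => (x, (0 : V × V))) e0.self_of_nhds.2.2 hj.continuousAt
  have eS : ∀ᶠ x in 𝓝 (0 : V), j x ∈ S := by
    apply hc0.eventually
    show S ∈ 𝓝 (g (0, 0))
    rw [hg1b]; exact hS
  obtain ⟨ρ, hρ, hρ'⟩ := nhds_basis_closedBall.mem_iff.1 (e0.and eS)
  have hj1 : ∀ x ∈ closedBall (0 : V) ρ, j x = (x, (j x).2.1, (j x).2.2) ∧ crit e (j x) = 0 := by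
    intro x hx
    have := Prod.mk.inj (hρ' hx).1.2.1
    exact ⟨Prod.ext this.1 rfl, this.2⟩
  have hjc : ContinuousOn j (closedBall 0 ρ) := fun x hx =>
    (ContinuousAt.comp (f := fun x : V => (x, (0 : V × V))) (hρ' hx).1.2.2
      hj.continuousAt).continuousWithinAt
  refine ⟨fun x => (j x).2.1, fun x => (j x).2.2, ρ, max C2 C3, hρ, ?_, ?_, ?_, ?_⟩
  · intro x hx
    have h := (hρ' hx).2.2
    rw [mem_closedBall, dist_eq_norm, (hj1 x hx).1] at h
    simp only [b, Prod.mk_sub_mk, Prod.norm_def, max_le_iff, sub_zero, sub_neg_eq_add] at h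
    refine ⟨h.1, h.2.1, h.2.2, ?_⟩
    rw [← (hj1 x hx).1]; exact (hj1 x hx).2
  · exact (continuous_fst.comp continuous_snd).comp_continuousOn hjc
  · exact (continuous_snd.comp continuous_snd).comp_continuousOn hjc
  · intro x hx x' hx'
    have hxx : dist x x' ≤ dist (j x) (j x') := by
      rw [(hj1 x hx).1, (hj1 x' hx').1]
      exact le_max_left _ _
    have a2 := hl2 _ (hρ' hx).2.1.1.2 _ (hρ' hx').2.1.1.2
    have a3 := hl3 _ (hρ' hx).2.1.2 _ (hρ' hx').2.1.2
    rw [(hj1 x hx).2, (hj1 x' hx').2] at a2 a3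
    rw [dist_prod_same_right] at a2 a3
    simp only [NNReal.coe_max]
    refine ⟨hxx.trans (a2.trans ?_), hxx.trans (a3.trans ?_)⟩
    · exact mul_le_mul_of_nonneg_right (le_max_left _ _) dist_nonneg
    · exact mul_le_mul_of_nonneg_right (le_max_right _ _) dist_nonneg

end Vale.Agent.P121
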