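import Mathlib.Analysis.InnerProductSpace.PiL2
import Mathlib.MeasureTheory.Measure.Haar.InnerProductSpace
import Mathlib.MeasureTheory.Integral.Lebesgue.Basic

/-! # Three-marginal Coulomb transport: basic definitions -/

namespace Vale.Agent.P121

open MeasureTheory
open scoped ENNReal

/-- Euclidean three-space. -/
abbrev E3 : Type := EuclideanSpace ℝ (Fin 3)

/-- The Coulomb cost of three points; it is `⊤` when two of the points coincide
(as `edist u u = 0` and `0⁻¹ = ⊤` in `ℝ≥0∞`). -/
noncomputable def coulombCost (p : E3 × E3 × E3) : ℝ≥0∞ :=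
  (edist p.1 p.2.1)⁻¹ + (edist p.1 p.2.2)⁻¹ + (edist p.2.1 p.2.2)⁻¹

/-- `p` is a measure on triples all three coordinate marginals of which equal `μ`. -/
def IsCoupling (μ : Measure E3) (p : Measure (E3 × E3 × E3)) : Prop :=
  p.map (fun q => q.1) = μ ∧ p.map (fun q => q.2.1) = μ ∧ p.map (fun q => q.2.2) = μ

/-- The Kantorovich value: infimum of the transport cost over all couplings. -/
noncomputable def kantorovichValue (μ : Measure E3) : ℝ≥0∞ :=
  ⨅ (p : Measure (E3 × E3 × E3)) (_ : IsCoupling μ p), ∫⁻ q, coulombCost q ∂p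

end Vale.Agent.P121
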