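import Vale.Agent.P121.Defs
import Vale.Agent.P121.Calc

/-! # Five small clusters and their dual potential -/

namespace Vale.Agent.P121

open scoped RealInnerProductSpace NNReal Topology
open Filter Set Metric

/-- Real version of the Coulomb cost. -/
noncomputable def costR (u v w : E3) : ℝ := ‖u - v‖⁻¹ + ‖u - w‖⁻¹ + ‖v - w‖⁻¹

lemma costR_swap12 (u v w : E3) : costR v u w = costR u v w := by
  rw [costR, costR, norm_sub_rev v u]; ring

lemma costR_swap23 (u v w : E3) : costR u w v = costR u v w := by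
  rw [costR, costR, norm_sub_rev w v]; ring

/-- The potential near the origin. -/
noncomputable def potA (x : E3) : ℝ := 4 - 16 * ‖x‖ ^ 2

/-- The potential near a unit vector `e`. -/
noncomputable def potB (e y : E3) : ℝ :=
  -(3 / 4) - 5 / 4 * ⟪e, y - e⟫ - 16 * ‖y - e‖ ^ 2

lemma min_unique {e x y z : E3} (hcrit : crit e (x, y, z) = 0) (h1 : 1 / 2 ≤ ‖x - y‖)
    (h2 : 1 / 2 ≤ ‖x - z‖) (h3 : 1 / 2 ≤ ‖y - z‖) {u v : E3} (huv : u ≠ v) (huz : u ≠ z)
    (hvz : v ≠ z) :
    costR x y z - potA x - potB e y + (‖u - x‖ ^ 2 + ‖v - y‖ ^ 2) ≤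
      costR u v z - potA u - potB e v := by
  have pos : ∀ a : E3, 1 / 2 ≤ ‖a‖ → a ≠ 0 := fun a ha h => by
    rw [h, norm_zero] at ha; norm_num at ha
  have quad : ∀ a b : E3, 1 / 2 ≤ ‖a‖ → b ≠ 0 →
      ‖a‖⁻¹ + ⟪force a, b - a⟫ - 4 * ‖b - a‖ ^ 2 ≤ ‖b‖⁻¹ := by
    intro a b ha hb
    have h := inv_norm_ge (pos a ha) hb
    have h8 : ‖b - a‖ ^ 2 / (2 * ‖a‖ ^ 3) ≤ 4 * ‖b - a‖ ^ 2 := by
      rw [div_le_iff₀ (by positivity [pos a ha])]
      have : 1 / 8 ≤ ‖a‖ ^ 3 := by
        have := pow_le_pow_left₀ (by norm_num) ha 3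
        norm_num at this ⊢; exact this
      nlinarith [sq_nonneg ‖b - a‖]
    linarith
  have q1 := quad (x - y) (u - v) h1 (sub_ne_zero.2 huv)
  have q2 := quad (x - z) (u - z) h2 (sub_ne_zero.2 huz)
  have q3 := quad (y - z) (v - z) h3 (sub_ne_zero.2 hvz)
  obtain ⟨a, rfl⟩ : ∃ a, u = x + a := ⟨u - x, by abel⟩
  obtain ⟨b, rfl⟩ : ∃ b, v = y + b := ⟨v - y, by abel⟩
  have g1 : ⟪(crit e (x, y, z)).1, a⟫ = 0 := by rw [hcrit]; simp
  have g2 : ⟪(crit e (x, y, z)).2, b⟫ = 0 := by rw [hcrit]; simp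
  have hn : force (y - x) = -force (x - y) := by rw [← force_neg, neg_sub]
  simp only [crit, hn, inner_add_left, inner_neg_left, inner_smul_left,
    RCLike.conj_to_real] at g1 g2
  rw [show x + a - (y + b) - (x - y) = a - b by abel, inner_sub_right] at q1
  rw [show x + a - z - (x - z) = a by abel] at q2
  rw [show y + b - z - (y - z) = b by abel] at q3
  have par : ‖a - b‖ ^ 2 ≤ 2 * ‖a‖ ^ 2 + 2 * ‖b‖ ^ 2 := by
    have := parallelogram_law_with_norm ℝ a b
    nlinarith [mul_self_nonneg ‖a + b‖]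
  have n1 : ‖x + a‖ ^ 2 = ‖x‖ ^ 2 + 2 * ⟪x, a⟫ + ‖a‖ ^ 2 := norm_add_sq_real x a
  have n2 : ‖y + b - e‖ ^ 2 = ‖y - e‖ ^ 2 + 2 * ⟪y - e, b⟫ + ‖b‖ ^ 2 := by
    rw [show y + b - e = y - e + b by abel]; exact norm_add_sq_real _ _
  have n3 : ⟪e, y + b - e⟫ = ⟪e, y - e⟫ + ⟪e, b⟫ := by
    rw [show y + b - e = y - e + b by abel, inner_add_right]
  simp only [costR, potA, potB, add_sub_cancel_left, n1, n2, n3]
  nlinarith [sq_nonneg ‖a‖, sq_nonneg ‖b‖]

/-- The two axes carrying the outer clusters. -/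
noncomputable def dir (i : Fin 2) : E3 := EuclideanSpace.single i.castSucc 1

lemma norm_dir (i : Fin 2) : ‖dir i‖ = 1 := by simp [dir]

lemma inner_dir {i j : Fin 2} (h : i ≠ j) : ⟪dir i, dir j⟫ = 0 := by
  simp [dir, h, EuclideanSpace.inner_single_left]

lemma norm_dir_add {i j : Fin 2} (h : i ≠ j) :
    1 ≤ ‖dir i + dir j‖ ∧ ‖dir i + dir j‖ ≤ 71 / 50 ∧
      1 ≤ ‖dir i - dir j‖ ∧ ‖dir i - dir j‖ ≤ 71 / 50 := by
  have h1 := norm_add_sq_real (dir i) (dir j)
  have h2 := norm_sub_sq_real (dir i) (dir j)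
  rw [inner_dir h, norm_dir, norm_dir] at h1 h2
  refine ⟨?_, ?_, ?_, ?_⟩ <;>
    nlinarith [norm_nonneg (dir i + dir j), norm_nonneg (dir i - dir j)]

/-- Families of contact triples on a common small ball. -/
structure Clusters where
  ρ : ℝ
  hρ : 0 < ρ
  y : Fin 2 → E3 → E3
  z : Fin 2 → E3 → E3
  C : ℝ≥0
  hx : ∀ x ∈ closedBall (0 : E3) ρ, ‖x‖ ≤ 1 / 1000
  hy : ∀ i, ∀ x ∈ closedBall (0 : E3) ρ, ‖y i x - dir i‖ ≤ 1 / 1000
  hz : ∀ i, ∀ x ∈ closedBall (0 : E3) ρ, ‖z i x + dir i‖ ≤ 1 / 1000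
  hcrit : ∀ i, ∀ x ∈ closedBall (0 : E3) ρ, crit (dir i) (x, y i x, z i x) = 0
  hyc : ∀ i, ContinuousOn (y i) (closedBall 0 ρ)
  hzc : ∀ i, ContinuousOn (z i) (closedBall 0 ρ)
  hya : ∀ i, ∀ x ∈ closedBall (0 : E3) ρ, ∀ x' ∈ closedBall (0 : E3) ρ,
    dist x x' ≤ C * dist (y i x) (y i x')
  hza : ∀ i, ∀ x ∈ closedBall (0 : E3) ρ, ∀ x' ∈ closedBall (0 : E3) ρ,
    dist x x' ≤ C * dist (z i x) (z i x')

theorem exists_clusters : Nonempty Clusters := by
  choose y z ρ C hρ h hyc hzc ha using fun i => exists_family (norm_dir i)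
  let r := min (ρ 0) (ρ 1)
  have hr : ∀ i, closedBall (0 : E3) r ⊆ closedBall 0 (ρ i) := fun i => by
    apply closedBall_subset_closedBall
    fin_cases i
    · exact min_le_left _ _
    · exact min_le_right _ _
  have hC : ∀ i, (C i : ℝ) ≤ (max (C 0) (C 1) : ℝ≥0) := fun i => by
    fin_cases i
    · exact NNReal.coe_le_coe.2 (le_max_left _ _)
    · exact NNReal.coe_le_coe.2 (le_max_right _ _)
  exact ⟨
    { ρ := r
      hρ := lt_min (hρ 0) (hρ 1)
      y := y
      z := z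
      C := max (C 0) (C 1)
      hx := fun x hx => (h 0 x (hr 0 hx)).1
      hy := fun i x hx => (h i x (hr i hx)).2.1
      hz := fun i x hx => (h i x (hr i hx)).2.2.1
      hcrit := fun i x hx => (h i x (hr i hx)).2.2.2
      hyc := fun i => (hyc i).mono (hr i)
      hzc := fun i => (hzc i).mono (hr i)
      hya := fun i x hx x' hx' => (ha i x (hr i hx) x' (hr i hx')).1.trans
        (mul_le_mul_of_nonneg_right (hC i) dist_nonneg)
      hza := fun i x hx x' hx' => (ha i x (hr i hx) x' (hr i hx')).2.trans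
        (mul_le_mul_of_nonneg_right (hC i) dist_nonneg) }⟩

namespace Clusters

variable (D : Clusters)

/-- The central cluster. -/
def setA : Set E3 := closedBall 0 D.ρ

/-- The cluster near `dir i`. -/
def setB (i : Fin 2) : Set E3 := D.y i '' D.setA

/-- The cluster near `-dir i`. -/
def setZ (i : Fin 2) : Set E3 := D.z i '' D.setA

/-- The union of all five clusters. -/
def setK : Set E3 := D.setA ∪ ((D.setB 0 ∪ D.setZ 0) ∪ (D.setB 1 ∪ D.setZ 1))

/-- Membership in one of the four outer clusters. -/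
def Outer (u : E3) : Prop := ∃ i, u ∈ D.setB i ∨ u ∈ D.setZ i

lemma mem_setK {u : E3} : u ∈ D.setK ↔ u ∈ D.setA ∨ D.Outer u := by
  simp [setK, Outer, Fin.exists_fin_two, or_assoc]

lemma norm_of_mem_A {u : E3} (h : u ∈ D.setA) : ‖u‖ ≤ 1 / 1000 := D.hx u h

lemma norm_of_mem_B {u : E3} {i : Fin 2} (h : u ∈ D.setB i) : ‖u - dir i‖ ≤ 1 / 1000 := by
  obtain ⟨x, hx, rfl⟩ := h
  exact D.hy i x hx

lemma norm_of_mem_Z {u : E3} {i : Fin 2} (h : u ∈ D.setZ i) : ‖u + dir i‖ ≤ 1 / 1000 := by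
  obtain ⟨x, hx, rfl⟩ := h
  exact D.hz i x hx

lemma not_A_of_B {u : E3} {i : Fin 2} (h : u ∈ D.setB i) : u ∉ D.setA := fun ha => by
  have h1 := D.norm_of_mem_A ha
  have h2 := D.norm_of_mem_B h
  have h3 := norm_le_norm_add_norm_sub' (dir i) u
  rw [norm_sub_rev] at h2
  rw [norm_dir] at h3
  linarith

lemma not_A_of_Z {u : E3} {i : Fin 2} (h : u ∈ D.setZ i) : u ∉ D.setA := fun ha => by
  have h1 := D.norm_of_mem_A ha
  have h2 := D.norm_of_mem_Z h
  have h3 := norm_sub_le (u + dir i) u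
  rw [add_sub_cancel_left, norm_dir] at h3
  linarith

lemma eq_of_B_B {u : E3} {i j : Fin 2} (h : u ∈ D.setB i) (h' : u ∈ D.setB j) : i = j := by
  by_contra hij
  have h1 := D.norm_of_mem_B h
  have h2 := D.norm_of_mem_B h'
  have h3 := norm_sub_le (u - dir j) (u - dir i)
  rw [show u - dir j - (u - dir i) = dir i - dir j by abel] at h3
  linarith [(norm_dir_add hij).2.2.1]

lemma eq_of_Z_Z {u : E3} {i j : Fin 2} (h : u ∈ D.setZ i) (h' : u ∈ D.setZ j) : i = j := by
  by_contra hij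
  have h1 := D.norm_of_mem_Z h
  have h2 := D.norm_of_mem_Z h'
  have h3 := norm_sub_le (u + dir i) (u + dir j)
  rw [show u + dir i - (u + dir j) = dir i - dir j by abel] at h3
  linarith [(norm_dir_add hij).2.2.1]

lemma not_B_Z {u : E3} {i j : Fin 2} (h : u ∈ D.setB i) : u ∉ D.setZ j := fun h' => by
  have h1 := D.norm_of_mem_B h
  have h2 := D.norm_of_mem_Z h'
  have h3 := norm_sub_le (u + dir j) (u - dir i)
  rw [show u + dir j - (u - dir i) = dir i + dir j by abel] at h3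
  rcases eq_or_ne i j with rfl | hij
  · have : ‖dir i + dir i‖ = 2 := by
      rw [← two_smul ℝ (dir i), norm_smul, norm_dir]; norm_num
    linarith
  · linarith [(norm_dir_add hij).1]

lemma injOn_y (i : Fin 2) : InjOn (D.y i) D.setA := fun a ha b hb h =>
  dist_le_zero.1 (by simpa [h] using D.hya i a ha b hb)

lemma injOn_z (i : Fin 2) : InjOn (D.z i) D.setA := fun a ha b hb h =>
  dist_le_zero.1 (by simpa [h] using D.hza i a ha b hb)

/-- Inverse of `D.y i` on its cluster. -/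
noncomputable def yInv (i : Fin 2) : E3 → E3 := Function.invFunOn (D.y i) D.setA

/-- Inverse of `D.z i` on its cluster. -/
noncomputable def zInv (i : Fin 2) : E3 → E3 := Function.invFunOn (D.z i) D.setA

lemma yInv_y {i : Fin 2} {x : E3} (h : x ∈ D.setA) : D.yInv i (D.y i x) = x :=
  (D.injOn_y i).leftInvOn_invFunOn h

lemma zInv_z {i : Fin 2} {x : E3} (h : x ∈ D.setA) : D.zInv i (D.z i x) = x :=
  (D.injOn_z i).leftInvOn_invFunOn h

lemma lipschitz_yInv (i : Fin 2) : LipschitzOnWith D.C (D.yInv i) (D.setB i) :=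
  LipschitzOnWith.of_dist_le_mul (by
    rintro _ ⟨a, ha, rfl⟩ _ ⟨b, hb, rfl⟩
    rw [D.yInv_y ha, D.yInv_y hb]
    exact D.hya i a ha b hb)

lemma lipschitz_zInv (i : Fin 2) : LipschitzOnWith D.C (D.zInv i) (D.setZ i) :=
  LipschitzOnWith.of_dist_le_mul (by
    rintro _ ⟨a, ha, rfl⟩ _ ⟨b, hb, rfl⟩
    rw [D.zInv_z ha, D.zInv_z hb]
    exact D.hza i a ha b hb)

/-- The potential on the cluster near `-dir i`. -/
noncomputable def potZ (i : Fin 2) (w : E3) : ℝ :=
  costR (D.zInv i w) (D.y i (D.zInv i w)) w - potA (D.zInv i w) -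
    potB (dir i) (D.y i (D.zInv i w))

open scoped Classical in
/-- The dual potential. -/
noncomputable def pot : E3 → ℝ :=
  D.setA.indicator potA +
    ((D.setB 0).indicator (potB (dir 0)) + (D.setZ 0).indicator (D.potZ 0) +
      ((D.setB 1).indicator (potB (dir 1)) + (D.setZ 1).indicator (D.potZ 1)))

lemma pot_A {u : E3} (h : u ∈ D.setA) : D.pot u = potA u := by
  have hb : ∀ i, u ∉ D.setB i := fun i hb => D.not_A_of_B hb h
  have hz : ∀ i, u ∉ D.setZ i := fun i hz => D.not_A_of_Z hz h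
  simp [pot, h, hb, hz]

lemma pot_B {u : E3} {i : Fin 2} (h : u ∈ D.setB i) : D.pot u = potB (dir i) u := by
  have hz : ∀ j, u ∉ D.setZ j := fun j => D.not_B_Z h
  have hb : ∀ j, j ≠ i → u ∉ D.setB j := fun j hj hb => hj (D.eq_of_B_B hb h)
  fin_cases i
  · simp [pot, D.not_A_of_B h, hz, hb 1 (by decide), show u ∈ D.setB 0 from h]
  · simp [pot, D.not_A_of_B h, hz, hb 0 (by decide), show u ∈ D.setB 1 from h]

lemma pot_Z {u : E3} {i : Fin 2} (h : u ∈ D.setZ i) : D.pot u = D.potZ i u := by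
  have hb : ∀ j, u ∉ D.setB j := fun j hb => D.not_B_Z hb h
  have hz : ∀ j, j ≠ i → u ∉ D.setZ j := fun j hj hz => hj (D.eq_of_Z_Z hz h)
  fin_cases i
  · simp [pot, D.not_A_of_Z h, hb, hz 1 (by decide), show u ∈ D.setZ 0 from h]
  · simp [pot, D.not_A_of_Z h, hb, hz 0 (by decide), show u ∈ D.setZ 1 from h]

/-- Distances inside a base triple. -/
lemma base_dist {i : Fin 2} {x : E3} (h : x ∈ D.setA) :
    (499 / 500 ≤ ‖x - D.y i x‖ ∧ ‖x - D.y i x‖ ≤ 501 / 500) ∧
    (499 / 500 ≤ ‖x - D.z i x‖ ∧ ‖x - D.z i x‖ ≤ 501 / 500) ∧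
    (999 / 500 ≤ ‖D.y i x - D.z i x‖ ∧ ‖D.y i x - D.z i x‖ ≤ 1001 / 500) := by
  have hx := D.hx x h
  have hy := D.hy i x h
  have hz := D.hz i x h
  have k : ∀ c d : E3, ‖d‖ ≤ 1 / 500 → ‖c‖ - 1 / 500 ≤ ‖c + d‖ ∧ ‖c + d‖ ≤ ‖c‖ + 1 / 500 := by
    intro c d hd
    have := norm_add_le c d
    have := norm_sub_le (c + d) d
    rw [add_sub_cancel_right] at this
    constructor <;> linarith
  have a1 := k (-dir i) (x - (D.y i x - dir i)) (le_trans (norm_sub_le _ _) (by linarith))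
  have a2 := k (dir i) (x - (D.z i x + dir i)) (le_trans (norm_sub_le _ _) (by linarith))
  have a3 := k (dir i + dir i) (D.y i x - dir i - (D.z i x + dir i))
    (le_trans (norm_sub_le _ _) (by linarith))
  rw [show -dir i + (x - (D.y i x - dir i)) = x - D.y i x by abel, norm_neg, norm_dir] at a1
  rw [show dir i + (x - (D.z i x + dir i)) = x - D.z i x by abel, norm_dir] at a2
  rw [show dir i + dir i + (D.y i x - dir i - (D.z i x + dir i)) = D.y i x - D.z i x by abel,
    ← two_smul ℝ (dir i), norm_smul, norm_dir, Real.norm_eq_abs] at a3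
  norm_num at a1 a2 a3 ⊢
  exact ⟨a1, a2, a3⟩

lemma inv_bounds {a l r : ℝ} (hl : 0 < l) (h : l ≤ a ∧ a ≤ r) : r⁻¹ ≤ a⁻¹ ∧ a⁻¹ ≤ l⁻¹ :=
  ⟨inv_anti₀ (lt_of_lt_of_le hl h.1) h.2, inv_anti₀ hl h.1⟩

lemma potB_bounds {e u : E3} (he : ‖e‖ = 1) (h : ‖u - e‖ ≤ 1 / 1000) :
    -(76 / 100) ≤ potB e u ∧ potB e u ≤ -(74 / 100) := by
  have hi := abs_real_inner_le_norm e (u - e)
  rw [he, one_mul] at hi
  have hi' := abs_le.1 hi
  have := norm_nonneg (u - e)
  constructor <;> (simp only [potB]; nlinarith [hi'.1, hi'.2])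

lemma potA_bounds {u : E3} (h : ‖u‖ ≤ 1 / 1000) : 399 / 100 ≤ potA u ∧ potA u ≤ 4 := by
  have := norm_nonneg u
  constructor <;> (simp only [potA]; nlinarith)

lemma pot_outer_bounds {u : E3} (h : D.Outer u) : -1 ≤ D.pot u ∧ D.pot u ≤ -(7 / 10) := by
  obtain ⟨i, hb | hz⟩ := h
  · rw [D.pot_B hb]
    have := potB_bounds (norm_dir i) (D.norm_of_mem_B hb)
    constructor <;> linarith
  · rw [D.pot_Z hz]
    obtain ⟨x, hx, rfl⟩ := hz
    rw [potZ, D.zInv_z hx]
    obtain ⟨b1, b2, b3⟩ := D.base_dist (i := i) hx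
    have c1 := inv_bounds (by norm_num) b1
    have c2 := inv_bounds (by norm_num) b2
    have c3 := inv_bounds (by norm_num) b3
    have := potB_bounds (norm_dir i) (D.hy i x hx)
    have := potA_bounds (D.hx x hx)
    norm_num at c1 c2 c3
    simp only [costR]
    constructor <;> linarith

lemma pot_bounds {u : E3} (h : u ∈ D.setK) : -1 ≤ D.pot u ∧ D.pot u ≤ 4 := by
  rcases (D.mem_setK).1 h with h | h
  · rw [D.pot_A h]
    have := potA_bounds (D.norm_of_mem_A h)
    constructor <;> linarith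
  · have := D.pot_outer_bounds h
    constructor <;> linarith

/-- A triple is a contact triple if it is a permutation of a member of one of the families. -/
def Contact (u v w : E3) : Prop :=
  ∃ i, ∃ x ∈ D.setA,
    (u = x ∧ v = D.y i x ∧ w = D.z i x) ∨ (u = x ∧ w = D.y i x ∧ v = D.z i x) ∨
    (v = x ∧ u = D.y i x ∧ w = D.z i x) ∨ (v = x ∧ w = D.y i x ∧ u = D.z i x) ∨
    (w = x ∧ u = D.y i x ∧ v = D.z i x) ∨ (w = x ∧ v = D.y i x ∧ u = D.z i x)

lemma Contact.swap12 {u v w : E3} (h : D.Contact u v w) : D.Contact v u w := by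
  obtain ⟨i, x, hx, h⟩ := h
  exact ⟨i, x, hx, by tauto⟩

lemma Contact.swap23 {u v w : E3} (h : D.Contact u v w) : D.Contact u w v := by
  obtain ⟨i, x, hx, h⟩ := h
  exact ⟨i, x, hx, by tauto⟩

/-- The dual inequality at a triple, with its equality cases. -/
def Good (u v w : E3) : Prop :=
  D.pot u + D.pot v + D.pot w ≤ costR u v w ∧
    (D.pot u + D.pot v + D.pot w = costR u v w → D.Contact u v w)

lemma Good.swap12 {u v w : E3} (h : D.Good u v w) : D.Good v u w := by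
  have e : D.pot v + D.pot u + D.pot w = D.pot u + D.pot v + D.pot w := by ring
  rw [Good, e, costR_swap12]
  exact ⟨h.1, fun he => Contact.swap12 D (h.2 he)⟩

lemma Good.swap23 {u v w : E3} (h : D.Good u v w) : D.Good u w v := by
  have e : D.pot u + D.pot w + D.pot v = D.pot u + D.pot v + D.pot w := by ring
  rw [Good, e, costR_swap23]
  exact ⟨h.1, fun he => Contact.swap23 D (h.2 he)⟩

lemma good_of_lt {u v w : E3} (h : D.pot u + D.pot v + D.pot w < costR u v w) : D.Good u v w :=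
  ⟨h.le, fun he => absurd he h.ne⟩

lemma good_AA {u v w : E3} (hu : u ∈ D.setA) (hv : v ∈ D.setA) (hw : w ∈ D.setK)
    (huv : u ≠ v) : D.Good u v w := by
  apply D.good_of_lt
  have h1 : ‖u - v‖ ≤ 1 / 500 :=
    (norm_sub_le _ _).trans (by linarith [D.norm_of_mem_A hu, D.norm_of_mem_A hv])
  have h2 := inv_anti₀ (norm_pos_iff.2 (sub_ne_zero.2 huv)) h1
  norm_num at h2
  have : 0 ≤ ‖u - w‖⁻¹ + ‖v - w‖⁻¹ := by positivity
  have := (D.pot_bounds hw).2
  have := D.pot_bounds (show u ∈ D.setK from Or.inl hu)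
  have := D.pot_bounds (show v ∈ D.setK from Or.inl hv)
  simp only [costR]
  linarith

lemma good_OOO {u v w : E3} (hu : D.Outer u) (hv : D.Outer v) (hw : D.Outer w) :
    D.Good u v w := by
  apply D.good_of_lt
  have := D.pot_outer_bounds hu
  have := D.pot_outer_bounds hv
  have := D.pot_outer_bounds hw
  have : 0 ≤ costR u v w := by simp only [costR]; positivity
  linarith

lemma good_base {u v w : E3} {i : Fin 2} (hu : u ∈ D.setA) (hv : v ∈ D.setB i)
    (hw : w ∈ D.setZ i) : D.Good u v w := by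
  have huv : u ≠ v := fun h => D.not_A_of_B hv (h ▸ hu)
  have huw : u ≠ w := fun h => D.not_A_of_Z hw (h ▸ hu)
  have hvw : v ≠ w := fun h => D.not_B_Z hv (h ▸ hw)
  rw [Good, D.pot_A hu, D.pot_B hv, D.pot_Z hw]
  obtain ⟨x, hx, rfl⟩ := hw
  rw [potZ, D.zInv_z hx]
  obtain ⟨b1, b2, b3⟩ := D.base_dist (i := i) hx
  have h := min_unique (D.hcrit i x hx) (by linarith [b1.1]) (by linarith [b2.1])
    (by linarith [b3.1]) huv huw hvw
  have s1 := sq_nonneg ‖u - x‖
  have s2 := sq_nonneg ‖v - D.y i x‖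
  refine ⟨by linarith, fun he => ⟨i, x, hx, Or.inl ⟨?_, ?_, rfl⟩⟩⟩
  · refine sub_eq_zero.1 (norm_eq_zero.1 (pow_eq_zero_iff two_ne_zero |>.1 ?_))
    linarith
  · refine sub_eq_zero.1 (norm_eq_zero.1 (pow_eq_zero_iff two_ne_zero |>.1 ?_))
    linarith

lemma good_AOO {u v w : E3} (hu : u ∈ D.setA) (hv : D.Outer v) (hw : D.Outer w)
    (huv : u ≠ v) (huw : u ≠ w) (hvw : v ≠ w) : D.Good u v w := by
  obtain ⟨i, hi⟩ := hv
  obtain ⟨j, hj⟩ := hw
  have pu := (D.pot_bounds (show u ∈ D.setK from Or.inl hu)).2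
  have pv := (D.pot_outer_bounds ⟨i, hi⟩).2
  have pw := (D.pot_outer_bounds ⟨j, hj⟩).2
  have hu' := D.norm_of_mem_A hu
  have far : ∀ p : E3, ∀ k, (p ∈ D.setB k ∨ p ∈ D.setZ k) → ‖u - p‖ ≤ 501 / 500 := by
    intro p k hp
    rcases hp with hp | hp
    · have h1 := D.norm_of_mem_B hp
      have h2 := norm_sub_le (u - (p - dir k)) (dir k)
      rw [show u - (p - dir k) - dir k = u - p by abel, norm_dir] at h2
      linarith [norm_sub_le u (p - dir k)]
    · have h1 := D.norm_of_mem_Z hp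
      have h2 := norm_add_le (u - (p + dir k)) (dir k)
      rw [show u - (p + dir k) + dir k = u - p by abel, norm_dir] at h2
      linarith [norm_sub_le u (p + dir k)]
  rcases eq_or_ne i j with rfl | hij
  · have same : ‖v - w‖ ≤ 1 / 500 → D.Good u v w := by
      intro h1
      apply D.good_of_lt
      have h2 := inv_anti₀ (norm_pos_iff.2 (sub_ne_zero.2 hvw)) h1
      norm_num at h2
      have : 0 ≤ ‖u - w‖⁻¹ + ‖u - v‖⁻¹ := by positivity
      simp only [costR]
      linarith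
    rcases hi with hi | hi <;> rcases hj with hj | hj
    · apply same
      rw [show v - w = v - dir i - (w - dir i) by abel]
      exact (norm_sub_le _ _).trans (by linarith [D.norm_of_mem_B hi, D.norm_of_mem_B hj])
    · exact D.good_base hu hi hj
    · exact Good.swap23 D (D.good_base hu hj hi)
    · apply same
      rw [show v - w = v + dir i - (w + dir i) by abel]
      exact (norm_sub_le _ _).trans (by linarith [D.norm_of_mem_Z hi, D.norm_of_mem_Z hj])
  · apply D.good_of_lt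
    obtain ⟨-, hs, -, hd⟩ := norm_dir_add hij
    have h1 : ‖v - w‖ ≤ 143 / 100 := by
      rcases hi with hi | hi <;> rcases hj with hj | hj
      · rw [show v - w = (v - dir i - (w - dir j)) + (dir i - dir j) by abel]
        refine (norm_add_le _ _).trans ?_
        linarith [norm_sub_le (v - dir i) (w - dir j), D.norm_of_mem_B hi, D.norm_of_mem_B hj]
      · rw [show v - w = (v - dir i - (w + dir j)) + (dir i + dir j) by abel]
        refine (norm_add_le _ _).trans ?_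
        linarith [norm_sub_le (v - dir i) (w + dir j), D.norm_of_mem_B hi, D.norm_of_mem_Z hj]
      · rw [show v - w = (v + dir i - (w - dir j)) - (dir i + dir j) by abel]
        refine (norm_sub_le _ _).trans ?_
        linarith [norm_sub_le (v + dir i) (w - dir j), D.norm_of_mem_Z hi, D.norm_of_mem_B hj]
      · rw [show v - w = (v + dir i - (w + dir j)) - (dir i - dir j) by abel]
        refine (norm_sub_le _ _).trans ?_
        linarith [norm_sub_le (v + dir i) (w + dir j), D.norm_of_mem_Z hi, D.norm_of_mem_Z hj]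
    have c1 := inv_anti₀ (norm_pos_iff.2 (sub_ne_zero.2 hvw)) h1
    have c2 := inv_anti₀ (norm_pos_iff.2 (sub_ne_zero.2 huv)) (far v i hi)
    have c3 := inv_anti₀ (norm_pos_iff.2 (sub_ne_zero.2 huw)) (far w j hj)
    norm_num at c1 c2 c3
    simp only [costR]
    linarith

theorem good {u v w : E3} (hu : u ∈ D.setK) (hv : v ∈ D.setK) (hw : w ∈ D.setK)
    (huv : u ≠ v) (huw : u ≠ w) (hvw : v ≠ w) : D.Good u v w := by
  rcases (D.mem_setK).1 hu with a | a <;> rcases (D.mem_setK).1 hv with b | b <;>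
    rcases (D.mem_setK).1 hw with c | c
  · exact D.good_AA a b hw huv
  · exact D.good_AA a b hw huv
  · exact Good.swap23 D (D.good_AA a c hv huw)
  · exact D.good_AOO a b c huv huw hvw
  · exact Good.swap12 D (Good.swap23 D (D.good_AA b c hu hvw))
  · exact Good.swap12 D (D.good_AOO b a c huv.symm hvw huw)
  · exact Good.swap23 D (Good.swap12 D (D.good_AOO c a b huw.symm hvw.symm huv))
  · exact D.good_OOO a b c

lemma pot_sum_base {i : Fin 2} {x : E3} (hx : x ∈ D.setA) :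
    D.pot x + D.pot (D.y i x) + D.pot (D.z i x) = costR x (D.y i x) (D.z i x) := by
  rw [D.pot_A hx, D.pot_B (mem_image_of_mem (D.y i) hx), D.pot_Z (mem_image_of_mem (D.z i) hx),
    potZ, D.zInv_z hx]
  ring

end Clusters

end Vale.Agent.P121
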