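import Vale.Agent.P121.Potential
import Mathlib.MeasureTheory.Measure.Hausdorff
import Mathlib.MeasureTheory.Measure.Haar.Unique
import Mathlib.MeasureTheory.Integral.Lebesgue.Markov
import Mathlib.MeasureTheory.Integral.Lebesgue.Map

/-! # The measure, its optimal plan, and the impossibility of optimal maps -/

namespace Vale.Agent.P121

open MeasureTheory
open scoped ENNReal NNReal Topology
open Filter Set Metric

lemma measurable_coulombCost : Measurable coulombCost := by
  unfold coulombCost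
  fun_prop

lemma coulombCost_eq_ofReal {u v w : E3} (h1 : u ≠ v) (h2 : u ≠ w) (h3 : v ≠ w) :
    coulombCost (u, v, w) = ENNReal.ofReal (costR u v w) := by
  have p1 : 0 < ‖u - v‖ := norm_pos_iff.2 (sub_ne_zero.2 h1)
  have p2 : 0 < ‖u - w‖ := norm_pos_iff.2 (sub_ne_zero.2 h2)
  have p3 : 0 < ‖v - w‖ := norm_pos_iff.2 (sub_ne_zero.2 h3)
  simp only [coulombCost, edist_dist, dist_eq_norm, costR]
  rw [ENNReal.ofReal_add (by positivity) (by positivity),
    ENNReal.ofReal_add (by positivity) (by positivity),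
    ENNReal.ofReal_inv_of_pos p1, ENNReal.ofReal_inv_of_pos p2, ENNReal.ofReal_inv_of_pos p3]

lemma coulombCost_eq_top {u v w : E3} (h : u = v ∨ u = w ∨ v = w) :
    coulombCost (u, v, w) = ⊤ := by
  rcases h with rfl | rfl | rfl <;> simp [coulombCost]

/-- A map with Lipschitz inverse on `s` does not charge null sets. -/
lemma map_restrict_ac {f g : E3 → E3} {s : Set E3} {C : ℝ≥0} (hf : Measurable f)
    (hg : LipschitzOnWith C g (f '' s)) (hgf : ∀ x ∈ s, g (f x) = x) :
    (volume.restrict s).map f ≪ (volume : Measure E3) := by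
  have hd : (Module.finrank ℝ E3 : ℝ) = 3 := by simp
  have h1 : (volume : Measure E3) ≪ μH[Module.finrank ℝ E3] :=
    Measure.absolutelyContinuous_isAddHaarMeasure _ _
  have h2 : (μH[Module.finrank ℝ E3] : Measure E3) ≪ volume :=
    Measure.absolutelyContinuous_isAddHaarMeasure _ _
  refine Measure.AbsolutelyContinuous.mk fun N hN hN0 => ?_
  rw [Measure.map_apply hf hN, Measure.restrict_apply (hf hN)]
  refine h1 (le_antisymm ?_ bot_le)
  have hsub : f ⁻¹' N ∩ s ⊆ g '' (N ∩ f '' s) := fun x hx =>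
    ⟨f x, ⟨hx.1, x, hx.2, rfl⟩, hgf x hx.2⟩
  refine (measure_mono hsub).trans
    (((hg.mono inter_subset_right).hausdorffMeasure_image_le (Nat.cast_nonneg _)).trans ?_)
  rw [measure_mono_null inter_subset_left (h2 hN0), mul_zero]

namespace Clusters

variable (D : Clusters)

lemma isCompact_A : IsCompact D.setA := isCompact_closedBall _ _

lemma measurableSet_A : MeasurableSet D.setA := measurableSet_closedBall

lemma measurableSet_B (i : Fin 2) : MeasurableSet (D.setB i) :=
  (D.isCompact_A.image_of_continuousOn (D.hyc i)).isClosed.measurableSet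

lemma measurableSet_Z (i : Fin 2) : MeasurableSet (D.setZ i) :=
  (D.isCompact_A.image_of_continuousOn (D.hzc i)).isClosed.measurableSet

lemma measurableSet_K : MeasurableSet D.setK :=
  D.measurableSet_A.union (((D.measurableSet_B 0).union (D.measurableSet_Z 0)).union
    ((D.measurableSet_B 1).union (D.measurableSet_Z 1)))

open scoped Classical in
/-- A globally measurable version of `D.y i`. -/
noncomputable def yM (i : Fin 2) : E3 → E3 := D.setA.piecewise (D.y i) fun _ => 0

open scoped Classical in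
/-- A globally measurable version of `D.z i`. -/
noncomputable def zM (i : Fin 2) : E3 → E3 := D.setA.piecewise (D.z i) fun _ => 0

lemma yM_eq {i : Fin 2} {x : E3} (h : x ∈ D.setA) : D.yM i x = D.y i x := by
  simp [yM, h]

lemma zM_eq {i : Fin 2} {x : E3} (h : x ∈ D.setA) : D.zM i x = D.z i x := by
  simp [zM, h]

lemma measurable_yM (i : Fin 2) : Measurable (D.yM i) := by
  classical
  exact (D.hyc i).measurable_piecewise continuousOn_const D.measurableSet_A

lemma measurable_zM (i : Fin 2) : Measurable (D.zM i) := by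
  classical
  exact (D.hzc i).measurable_piecewise continuousOn_const D.measurableSet_A

lemma continuousOn_potZ (i : Fin 2) : ContinuousOn (D.potZ i) (D.setZ i) := by
  have hg : ContinuousOn (D.zInv i) (D.setZ i) := (D.lipschitz_zInv i).continuousOn
  have hm : MapsTo (D.zInv i) (D.setZ i) D.setA := by
    rintro _ ⟨x, hx, rfl⟩
    rwa [D.zInv_z hx]
  have hy : ContinuousOn (fun w => D.y i (D.zInv i w)) (D.setZ i) := (D.hyc i).comp hg hm
  have ne : ∀ w ∈ D.setZ i, 0 < ‖D.zInv i w - D.y i (D.zInv i w)‖ ∧ 0 < ‖D.zInv i w - w‖ ∧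
      0 < ‖D.y i (D.zInv i w) - w‖ := by
    rintro _ ⟨x, hx, rfl⟩
    rw [D.zInv_z hx]
    obtain ⟨b1, b2, b3⟩ := D.base_dist (i := i) hx
    exact ⟨by linarith [b1.1], by linarith [b2.1], by linarith [b3.1]⟩
  have c1 := ((hg.sub hy).norm).inv₀ fun w hw => (ne w hw).1.ne'
  have c2 := ((hg.sub continuousOn_id).norm).inv₀ fun w hw => (ne w hw).2.1.ne'
  have c3 := ((hy.sub continuousOn_id).norm).inv₀ fun w hw => (ne w hw).2.2.ne'
  have hA : Continuous potA := by unfold potA; fun_prop
  have hB : Continuous (potB (dir i)) := by unfold potB; fun_prop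
  exact ((c1.add c2).add c3).sub (hA.comp_continuousOn hg) |>.sub (hB.comp_continuousOn hy)

lemma measurable_pot : Measurable D.pot := by
  classical
  have hA : Continuous potA := by unfold potA; fun_prop
  have hB : ∀ i, Continuous (potB (dir i)) := fun i => by unfold potB; fun_prop
  have mB : ∀ i, Measurable ((D.setB i).indicator (potB (dir i))) := fun i =>
    (hB i).measurable.indicator (D.measurableSet_B i)
  have mZ : ∀ i, Measurable ((D.setZ i).indicator (D.potZ i)) := fun i => by
    rw [← piecewise_eq_indicator]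
    exact (D.continuousOn_potZ i).measurable_piecewise continuousOn_const (D.measurableSet_Z i)
  exact (hA.measurable.indicator D.measurableSet_A).add
    (((mB 0).add (mZ 0)).add ((mB 1).add (mZ 1)))

/-- The shifted, nonnegative potential. -/
noncomputable def psi (u : E3) : ℝ≥0∞ := ENNReal.ofReal (D.pot u + 2)

lemma measurable_psi : Measurable D.psi :=
  ENNReal.measurable_ofReal.comp (D.measurable_pot.add_const 2)

/-- The sum of the shifted potential over a triple. -/
noncomputable def psi3 (p : E3 × E3 × E3) : ℝ≥0∞ := D.psi p.1 + D.psi p.2.1 + D.psi p.2.2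

lemma measurable_psi3 : Measurable D.psi3 :=
  ((D.measurable_psi.comp measurable_fst).add
    (D.measurable_psi.comp (measurable_fst.comp measurable_snd))).add
    (D.measurable_psi.comp (measurable_snd.comp measurable_snd))

lemma psi3_ne_top (p : E3 × E3 × E3) : D.psi3 p ≠ ⊤ := by simp [psi3, psi]

lemma psi3_eq {u v w : E3} (hu : u ∈ D.setK) (hv : v ∈ D.setK) (hw : w ∈ D.setK) :
    D.psi3 (u, v, w) = ENNReal.ofReal (D.pot u + D.pot v + D.pot w + 6) := by
  have := (D.pot_bounds hu).1
  have := (D.pot_bounds hv).1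
  have := (D.pot_bounds hw).1
  simp only [psi3, psi]
  rw [← ENNReal.ofReal_add (by linarith) (by linarith),
    ← ENNReal.ofReal_add (by linarith) (by linarith)]
  congr 1; ring

lemma dual {u v w : E3} (hu : u ∈ D.setK) (hv : v ∈ D.setK) (hw : w ∈ D.setK) :
    D.psi3 (u, v, w) ≤ coulombCost (u, v, w) + 6 ∧
      (D.psi3 (u, v, w) = coulombCost (u, v, w) + 6 → D.Contact u v w) := by
  by_cases h : u = v ∨ u = w ∨ v = w
  · rw [coulombCost_eq_top h, top_add]
    exact ⟨le_top, fun he => absurd he (D.psi3_ne_top _)⟩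
  · simp only [not_or] at h
    obtain ⟨g1, g2⟩ := D.good hu hv hw h.1 h.2.1 h.2.2
    have := (D.pot_bounds hu).1
    have := (D.pot_bounds hv).1
    have := (D.pot_bounds hw).1
    have hc : 0 ≤ costR u v w := by simp only [costR]; positivity
    have e : coulombCost (u, v, w) + 6 = ENNReal.ofReal (costR u v w + 6) := by
      rw [coulombCost_eq_ofReal h.1 h.2.1 h.2.2, ENNReal.ofReal_add hc (by norm_num),
        ENNReal.ofReal_ofNat]
    rw [D.psi3_eq hu hv hw, e]
    refine ⟨ENNReal.ofReal_le_ofReal (by linarith), fun he => g2 ?_⟩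
    rw [ENNReal.ofReal_eq_ofReal_iff (by linarith) (by linarith)] at he
    linarith

/-- The uniform law on the central cluster. -/
noncomputable def nu : Measure E3 := (volume D.setA)⁻¹ • volume.restrict D.setA

instance : IsProbabilityMeasure D.nu := by
  have h0 : volume D.setA ≠ 0 := (Metric.measure_closedBall_pos volume 0 D.hρ).ne'
  exact ⟨by simp [nu, ENNReal.inv_mul_cancel h0 D.isCompact_A.measure_lt_top.ne]⟩

lemma nu_ac : D.nu ≪ (volume : Measure E3) :=
  (Measure.smul_absolutelyContinuous (c := _)).trans Measure.restrict_le_self.absolutelyContinuous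

lemma ae_nu_mem : ∀ᵐ x ∂D.nu, x ∈ D.setA :=
  Measure.ae_smul_measure (ae_restrict_mem D.measurableSet_A) _

/-- The law of the `i`-th triple, summed over its three points. -/
noncomputable def typeLaw (i : Fin 2) : Measure E3 :=
  D.nu + D.nu.map (D.yM i) + D.nu.map (D.zM i)

/-- The counterexample measure. -/
noncomputable def mu : Measure E3 := (6 : ℝ≥0∞)⁻¹ • (D.typeLaw 0 + D.typeLaw 1)

instance : IsProbabilityMeasure D.mu := by
  constructor
  simp only [mu, typeLaw, Measure.smul_apply, Measure.add_apply, smul_eq_mul,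
    Measure.map_apply (D.measurable_yM _) MeasurableSet.univ,
    Measure.map_apply (D.measurable_zM _) MeasurableSet.univ, preimage_univ, measure_univ]
  norm_num
  exact ENNReal.inv_mul_cancel (by norm_num) (by norm_num)

lemma mu_ac : D.mu ≪ (volume : Measure E3) := by
  have hy : ∀ i, D.nu.map (D.yM i) ≪ (volume : Measure E3) := fun i => by
    rw [nu, Measure.map_smul]
    refine Measure.smul_absolutelyContinuous.trans
      (map_restrict_ac (g := D.yInv i) (C := D.C) (D.measurable_yM i) ?_ fun x hx => ?_)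
    · rw [image_congr fun x hx => D.yM_eq hx]
      exact D.lipschitz_yInv i
    · rw [D.yM_eq hx, D.yInv_y hx]
  have hz : ∀ i, D.nu.map (D.zM i) ≪ (volume : Measure E3) := fun i => by
    rw [nu, Measure.map_smul]
    refine Measure.smul_absolutelyContinuous.trans
      (map_restrict_ac (g := D.zInv i) (C := D.C) (D.measurable_zM i) ?_ fun x hx => ?_)
    · rw [image_congr fun x hx => D.zM_eq hx]
      exact D.lipschitz_zInv i
    · rw [D.zM_eq hx, D.zInv_z hx]
  have ht : ∀ i, D.typeLaw i ≪ (volume : Measure E3) := fun i =>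
    ((D.nu_ac.add_left (hy i)).add_left (hz i))
  exact Measure.smul_absolutelyContinuous.trans ((ht 0).add_left (ht 1))

lemma ae_mu_iff {P : E3 → Prop} (h : ∀ᵐ u ∂D.mu, P u) (i : Fin 2) :
    ∀ᵐ x ∂D.nu, P x ∧ P (D.yM i x) ∧ P (D.zM i x) := by
  rw [mu, Measure.ae_ennreal_smul_measure_iff (by norm_num), ae_add_measure_iff, typeLaw,
    typeLaw, ae_add_measure_iff, ae_add_measure_iff, ae_add_measure_iff, ae_add_measure_iff] at h
  obtain ⟨⟨⟨a, b⟩, c⟩, ⟨⟨a', b'⟩, c'⟩⟩ := h
  have key : (∀ᵐ x ∂D.nu, P x) ∧ (∀ᵐ x ∂D.nu, P (D.yM i x)) ∧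
      (∀ᵐ x ∂D.nu, P (D.zM i x)) := by
    fin_cases i
    · exact ⟨a, ae_of_ae_map (D.measurable_yM 0).aemeasurable b,
        ae_of_ae_map (D.measurable_zM 0).aemeasurable c⟩
    · exact ⟨a', ae_of_ae_map (D.measurable_yM 1).aemeasurable b',
        ae_of_ae_map (D.measurable_zM 1).aemeasurable c'⟩
  filter_upwards [key.1, key.2.1, key.2.2] with x h1 h2 h3 using ⟨h1, h2, h3⟩

lemma ae_mu_mem : ∀ᵐ u ∂D.mu, u ∈ D.setK := by
  have hA : ∀ᵐ x ∂D.nu, x ∈ D.setK := D.ae_nu_mem.mono fun x hx => Or.inl hx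
  have hY : ∀ i, ∀ᵐ u ∂D.nu.map (D.yM i), u ∈ D.setK := fun i =>
    (ae_map_iff (D.measurable_yM i).aemeasurable D.measurableSet_K).2 <|
      D.ae_nu_mem.mono fun x hx => D.mem_setK.2 <|
        Or.inr ⟨i, Or.inl ⟨x, hx, (D.yM_eq hx).symm⟩⟩
  have hZ : ∀ i, ∀ᵐ u ∂D.nu.map (D.zM i), u ∈ D.setK := fun i =>
    (ae_map_iff (D.measurable_zM i).aemeasurable D.measurableSet_K).2 <|
      D.ae_nu_mem.mono fun x hx => D.mem_setK.2 <|
        Or.inr ⟨i, Or.inr ⟨x, hx, (D.zM_eq hx).symm⟩⟩
  simp only [mu, typeLaw]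
  refine Measure.ae_smul_measure ?_ _
  simp only [ae_add_measure_iff]
  exact ⟨⟨⟨hA, hY 0⟩, hZ 0⟩, ⟨⟨hA, hY 1⟩, hZ 1⟩⟩

/-- The six orderings of the `i`-th triple over the uniform law. -/
noncomputable def typePlan (i : Fin 2) : Measure (E3 × E3 × E3) :=
  D.nu.map (fun x => (x, D.yM i x, D.zM i x)) + D.nu.map (fun x => (x, D.zM i x, D.yM i x)) +
    D.nu.map (fun x => (D.yM i x, x, D.zM i x)) + D.nu.map (fun x => (D.zM i x, x, D.yM i x)) +
    D.nu.map (fun x => (D.yM i x, D.zM i x, x)) + D.nu.map (fun x => (D.zM i x, D.yM i x, x))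

/-- The symmetrised optimal plan. -/
noncomputable def plan : Measure (E3 × E3 × E3) :=
  (12 : ℝ≥0∞)⁻¹ • (D.typePlan 0 + D.typePlan 1)

lemma isCoupling_plan : IsCoupling D.mu D.plan := by
  have h12 : (6 : ℝ≥0∞)⁻¹ = (12 : ℝ≥0∞)⁻¹ + (12 : ℝ≥0∞)⁻¹ := by
    rw [← ENNReal.toReal_eq_toReal_iff' (by norm_num) (by norm_num),
      ENNReal.toReal_add (by norm_num) (by norm_num)]
    norm_num
  have key : ∀ π : E3 × E3 × E3 → E3, Measurable π →
      (∀ i, (D.typePlan i).map π = D.typeLaw i + D.typeLaw i) → D.plan.map π = D.mu := by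
    intro π hπ h
    rw [plan, Measure.map_smul, Measure.map_add _ _ hπ, h 0, h 1, mu, h12, add_smul]
    simp only [smul_add]
    abel
  have m1 : Measurable fun q : E3 × E3 × E3 => q.1 := measurable_fst
  have m2 : Measurable fun q : E3 × E3 × E3 => q.2.1 := measurable_fst.comp measurable_snd
  have m3 : Measurable fun q : E3 × E3 × E3 => q.2.2 := measurable_snd.comp measurable_snd
  refine ⟨key _ m1 ?_, key _ m2 ?_, key _ m3 ?_⟩ <;>
  · intro i
    have my := D.measurable_yM i
    have mz := D.measurable_zM i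
    simp only [typePlan]
    simp (disch := fun_prop) only [Measure.map_add, Measure.map_map, Function.comp_def]
    simp only [typeLaw, Measure.map_id']
    abel

lemma plan_contact : (fun p => D.psi3 p) =ᵐ[D.plan] fun p => coulombCost p + 6 := by
  have hmeas : MeasurableSet {p | D.psi3 p = coulombCost p + 6} :=
    measurableSet_eq_fun D.measurable_psi3 (measurable_coulombCost.add_const 6)
  have base : ∀ i, ∀ x ∈ D.setA, D.psi3 (x, D.y i x, D.z i x) =
      coulombCost (x, D.y i x, D.z i x) + 6 := by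
    intro i x hx
    have hb := mem_image_of_mem (D.y i) hx
    have hz := mem_image_of_mem (D.z i) hx
    obtain ⟨b1, b2, b3⟩ := D.base_dist (i := i) hx
    have pos : ∀ a b : E3, 499 / 500 ≤ ‖a - b‖ → a ≠ b := fun a b h e => by
      rw [e, sub_self, norm_zero] at h; norm_num at h
    rw [D.psi3_eq (u := x) (Or.inl hx) (D.mem_setK.2 (Or.inr ⟨i, Or.inl hb⟩))
      (D.mem_setK.2 (Or.inr ⟨i, Or.inr hz⟩)), D.pot_sum_base hx,
      coulombCost_eq_ofReal (pos _ _ b1.1) (pos _ _ b2.1) (pos _ _ (by linarith [b3.1])),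
      ENNReal.ofReal_add (by simp only [costR]; positivity) (by norm_num), ENNReal.ofReal_ofNat]
  have sym : ∀ u v w : E3, D.psi3 (u, v, w) = coulombCost (u, v, w) + 6 →
      D.psi3 (v, u, w) = coulombCost (v, u, w) + 6 ∧
      D.psi3 (u, w, v) = coulombCost (u, w, v) + 6 := by
    intro u v w h
    constructor
    · convert h using 1
      · simp only [psi3]; abel
      · simp only [coulombCost, edist_comm v u]; abel
    · convert h using 1
      · simp only [psi3]; abel
      · simp only [coulombCost, edist_comm w v]; abel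
  have all : ∀ i, ∀ᵐ p ∂D.typePlan i, D.psi3 p = coulombCost p + 6 := by
    intro i
    have my := D.measurable_yM i
    have mz := D.measurable_zM i
    simp only [typePlan, ae_add_measure_iff]
    refine ⟨⟨⟨⟨⟨?_, ?_⟩, ?_⟩, ?_⟩, ?_⟩, ?_⟩ <;>
      refine (ae_map_iff (by fun_prop) hmeas).2 (D.ae_nu_mem.mono fun x hx => ?_) <;>
      rw [D.yM_eq hx, D.zM_eq hx]
    · exact base i x hx
    · exact (sym _ _ _ (base i x hx)).2
    · exact (sym _ _ _ (base i x hx)).1
    · exact (sym _ _ _ (sym _ _ _ (base i x hx)).2).1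
    · exact (sym _ _ _ (sym _ _ _ (base i x hx)).1).2
    · exact (sym _ _ _ (sym _ _ _ (sym _ _ _ (base i x hx)).2).1).2
  exact Measure.ae_smul_measure (ae_add_measure_iff.2 ⟨all 0, all 1⟩) _

lemma lintegral_psi_ne_top : ∫⁻ u, D.psi u ∂D.mu ≠ ⊤ := by
  refine ne_top_of_le_ne_top (b := (6 : ℝ≥0∞)) (by norm_num) ?_
  calc ∫⁻ u, D.psi u ∂D.mu ≤ ∫⁻ _, (6 : ℝ≥0∞) ∂D.mu := by
        refine lintegral_mono_ae (D.ae_mu_mem.mono fun u hu => ?_)
        refine (ENNReal.ofReal_le_ofReal (q := 6) ?_).trans_eq (ENNReal.ofReal_ofNat 6)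
        linarith [(D.pot_bounds hu).2]
    _ = 6 := by simp

lemma lintegral_psi3 {P : Measure (E3 × E3 × E3)} (h : IsCoupling D.mu P) :
    ∫⁻ p, D.psi3 p ∂P = 3 * ∫⁻ u, D.psi u ∂D.mu := by
  obtain ⟨h1, h2, h3⟩ := h
  simp only [psi3]
  have m := D.measurable_psi
  rw [lintegral_add_left (by fun_prop), lintegral_add_left (by fun_prop),
    ← lintegral_map m (by fun_prop : Measurable fun q : E3 × E3 × E3 => q.1),
    ← lintegral_map m (by fun_prop : Measurable fun q : E3 × E3 × E3 => q.2.1),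
    ← lintegral_map m (by fun_prop : Measurable fun q : E3 × E3 × E3 => q.2.2), h1, h2, h3]
  ring

lemma plan_cost : (∫⁻ p, coulombCost p ∂D.plan) + 6 = 3 * ∫⁻ u, D.psi u ∂D.mu := by
  have hp : IsProbabilityMeasure D.plan := by
    constructor
    have h := congrArg (fun m : Measure E3 => m univ) D.isCoupling_plan.1
    simpa [Measure.map_apply measurable_fst MeasurableSet.univ] using h
  rw [← D.lintegral_psi3 D.isCoupling_plan, lintegral_congr_ae D.plan_contact,
    lintegral_add_left measurable_coulombCost, lintegral_const, measure_univ, mul_one]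

lemma kantorovich_lt_top : kantorovichValue D.mu < ⊤ := by
  refine lt_of_le_of_lt (iInf₂_le D.plan D.isCoupling_plan) ?_
  have h : (∫⁻ p, coulombCost p ∂D.plan) + 6 < ⊤ := by
    rw [D.plan_cost]
    exact ENNReal.mul_lt_top (by simp) (lt_top_iff_ne_top.2 D.lintegral_psi_ne_top)
  exact lt_of_le_of_lt le_self_add h

lemma optimal_ae_contact {T U : E3 → E3} (hT : Measurable T) (hU : Measurable U)
    (hTm : D.mu.map T = D.mu) (hUm : D.mu.map U = D.mu)
    (hopt : ∫⁻ x, coulombCost (x, T x, U x) ∂D.mu = kantorovichValue D.mu) :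
    ∀ᵐ x ∂D.mu, D.Contact x (T x) (U x) := by
  have m : Measurable fun x => (x, T x, U x) := by fun_prop
  have hc : IsCoupling D.mu (D.mu.map fun x => (x, T x, U x)) := by
    refine ⟨?_, ?_, ?_⟩
    · rw [Measure.map_map (by fun_prop) m]; exact Measure.map_id
    · rw [Measure.map_map (by fun_prop) m]; exact hTm
    · rw [Measure.map_map (by fun_prop) m]; exact hUm
  have hint : ∫⁻ x, D.psi3 (x, T x, U x) ∂D.mu = 3 * ∫⁻ u, D.psi u ∂D.mu := by
    rw [← lintegral_map D.measurable_psi3 m, D.lintegral_psi3 hc]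
  have hTK : ∀ᵐ x ∂D.mu, T x ∈ D.setK :=
    ae_of_ae_map hT.aemeasurable (hTm.symm ▸ D.ae_mu_mem)
  have hUK : ∀ᵐ x ∂D.mu, U x ∈ D.setK :=
    ae_of_ae_map hU.aemeasurable (hUm.symm ▸ D.ae_mu_mem)
  have hle : (fun x => D.psi3 (x, T x, U x)) ≤ᵐ[D.mu] fun x => coulombCost (x, T x, U x) + 6 := by
    filter_upwards [D.ae_mu_mem, hTK, hUK] with x a b c using (D.dual a b c).1
  have hmc : Measurable fun x => coulombCost (x, T x, U x) := measurable_coulombCost.comp m
  have heq := ae_eq_of_ae_le_of_lintegral_le hle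
    (by rw [hint]; exact ENNReal.mul_ne_top (by simp) D.lintegral_psi_ne_top)
    (hmc.add_const 6).aemeasurable (by
      rw [hint, lintegral_add_left hmc, lintegral_const, measure_univ, mul_one, hopt, ← D.plan_cost]
      gcongr
      exact iInf₂_le D.plan D.isCoupling_plan)
  filter_upwards [D.ae_mu_mem, hTK, hUK, heq] with x a b c e using (D.dual a b c).2 e

open scoped Classical in
theorem not_optimal {T U : E3 → E3} (hT : Measurable T) (hU : Measurable U)
    (hTm : D.mu.map T = D.mu) (hUm : D.mu.map U = D.mu) :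
    ∫⁻ x, coulombCost (x, T x, U x) ∂D.mu ≠ kantorovichValue D.mu := by
  intro hopt
  have hcon := D.optimal_ae_contact hT hU hTm hUm hopt
  let g : E3 → E3 := (D.setB 0).piecewise (D.yInv 0) fun _ => 0
  have hg : Measurable g :=
    (D.lipschitz_yInv 0).continuousOn.measurable_piecewise continuousOn_const (D.measurableSet_B 0)
  let S : Set E3 := T ⁻¹' D.setB 0 ∪ U ⁻¹' D.setB 0
  have hS : MeasurableSet S := (hT (D.measurableSet_B 0)).union (hU (D.measurableSet_B 0))
  have key : ∀ W, MeasurableSet W → W ⊆ D.setA →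
      2 * (D.nu (W ∩ S)).toReal = (D.nu W).toReal := by
    intro W hW hWA
    let V : Set E3 := D.setB 0 ∩ g ⁻¹' W
    have hV : MeasurableSet V := (D.measurableSet_B 0).inter (hg hW)
    let one : E3 → ℝ≥0∞ := V.indicator 1
    have hone : Measurable one := measurable_one.indicator hV
    let count : E3 → E3 → E3 → ℝ≥0∞ := fun a b c => one a + one b + one c
    have one_y : ∀ x ∈ D.setA, one (D.y 0 x) = W.indicator 1 x := by
      intro x hx
      have hb : D.y 0 x ∈ D.setB 0 := mem_image_of_mem _ hx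
      have : g (D.y 0 x) = x := by simp [g, hb, D.yInv_y hx]
      by_cases hxW : x ∈ W <;> simp [one, V, hb, this, hxW]
    have one_notB : ∀ u, u ∉ D.setB 0 → one u = 0 := fun u hu => by simp [one, V, hu]
    have base : ∀ i, ∀ x ∈ D.setA,
        count x (D.y i x) (D.z i x) = if i = 0 then W.indicator 1 x else 0 := by
      intro i x hx
      have n1 : x ∉ D.setB 0 := fun h => D.not_A_of_B h hx
      have n2 : D.z i x ∉ D.setB 0 := fun h => D.not_B_Z h (mem_image_of_mem (D.z i) hx)
      simp only [count, one_notB _ n1, one_notB _ n2, zero_add, add_zero]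
      split_ifs with hi
      · rw [hi, one_y x hx]
      · exact one_notB _ fun h => hi (D.eq_of_B_B (mem_image_of_mem (D.y i) hx) h)
    have val : ∀ u v w, D.Contact u v w → ∃ i, ∃ x ∈ D.setA,
        count u v w = (if i = 0 then W.indicator 1 x else 0) ∧
        ((u = x ∧ ((i = 0) ↔ (v ∈ D.setB 0 ∨ w ∈ D.setB 0))) ∨ u = D.y i x ∨ u = D.z i x) := by
      rintro u v w ⟨i, x, hx, h⟩
      refine ⟨i, x, hx, ?_, ?_⟩
      · rw [← base i x hx]
        rcases h with ⟨a, b, c⟩ | ⟨a, b, c⟩ | ⟨a, b, c⟩ | ⟨a, b, c⟩ | ⟨a, b, c⟩ | ⟨a, b, c⟩ <;>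
          subst a <;> subst b <;> subst c <;> simp only [count] <;> abel
      · have hy : D.y i x ∈ D.setB 0 ↔ i = 0 :=
          ⟨fun h => D.eq_of_B_B (mem_image_of_mem (D.y i) hx) h,
            fun h => h ▸ mem_image_of_mem (D.y i) hx⟩
        have hz : D.z i x ∉ D.setB 0 := fun h => D.not_B_Z h (mem_image_of_mem (D.z i) hx)
        rcases h with ⟨a, b, c⟩ | ⟨a, b, c⟩ | ⟨a, b, c⟩ | ⟨a, b, c⟩ | ⟨a, b, c⟩ | ⟨a, b, c⟩
        · exact Or.inl ⟨a, by simp [b, c, hy, hz]⟩
        · exact Or.inl ⟨a, by simp [b, c, hy, hz]⟩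
        · exact Or.inr (Or.inl b)
        · exact Or.inr (Or.inr c)
        · exact Or.inr (Or.inl b)
        · exact Or.inr (Or.inr c)
    let m : E3 → ℝ≥0∞ := fun u => count u (T u) (U u)
    have hm : Measurable m := (hone.add (hone.comp hT)).add (hone.comp hU)
    have fA : ∀ i, ∀ᵐ x ∂D.nu, m x = (W ∩ S).indicator 1 x ∧
        m (D.yM i x) = (if i = 0 then W.indicator 1 x else 0) ∧
        m (D.zM i x) = (if i = 0 then W.indicator 1 x else 0) := by
      intro i
      filter_upwards [D.ae_mu_iff hcon i, D.ae_nu_mem] with x hx hxA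
      obtain ⟨h1, h2, h3⟩ := hx
      rw [D.yM_eq hxA] at h2 ⊢
      rw [D.zM_eq hxA] at h3 ⊢
      refine ⟨?_, ?_, ?_⟩
      · obtain ⟨j, a, ha, hc, h | h | h⟩ := val _ _ _ h1
        · obtain ⟨h, hj⟩ := h
          subst h
          by_cases hj0 : j = 0
          · have : x ∈ S := hj.1 hj0
            by_cases hxW : x ∈ W <;> simp [m, hc, hj0, hxW, this]
          · have : x ∉ S := fun hs => hj0 (hj.2 hs)
            simp [m, hc, hj0, this]
        · exact absurd hxA (D.not_A_of_B (h ▸ mem_image_of_mem (D.y j) ha))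
        · exact absurd hxA (D.not_A_of_Z (h ▸ mem_image_of_mem (D.z j) ha))
      · have hb := mem_image_of_mem (D.y i) hxA
        obtain ⟨j, a, ha, hc, h | h | h⟩ := val _ _ _ h2
        · exact absurd (h.1 ▸ ha) (D.not_A_of_B hb)
        · obtain rfl := D.eq_of_B_B hb (h ▸ mem_image_of_mem (D.y j) ha)
          obtain rfl := D.injOn_y _ hxA ha h
          exact hc
        · exact absurd (h ▸ mem_image_of_mem (D.z j) ha) (D.not_B_Z hb)
      · have hb := mem_image_of_mem (D.z i) hxA
        obtain ⟨j, a, ha, hc, h | h | h⟩ := val _ _ _ h3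
        · exact absurd (h.1 ▸ ha) (D.not_A_of_Z hb)
        · exact absurd hb (D.not_B_Z (h ▸ mem_image_of_mem (D.y j) ha))
        · obtain rfl := D.eq_of_Z_Z hb (h ▸ mem_image_of_mem (D.z j) ha)
          obtain rfl := D.injOn_z _ hxA ha h
          exact hc
    have iW : ∫⁻ x, W.indicator (1 : E3 → ℝ≥0∞) x ∂D.nu = D.nu W :=
      lintegral_indicator_one hW
    have iWS : ∫⁻ x, (W ∩ S).indicator (1 : E3 → ℝ≥0∞) x ∂D.nu = D.nu (W ∩ S) :=
      lintegral_indicator_one (hW.inter hS)
    have expand : ∀ f : E3 → ℝ≥0∞, Measurable f → ∀ i, ∫⁻ u, f u ∂D.typeLaw i =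
        (∫⁻ x, f x ∂D.nu) + (∫⁻ x, f (D.yM i x) ∂D.nu) + ∫⁻ x, f (D.zM i x) ∂D.nu := by
      intro f hf i
      rw [typeLaw, lintegral_add_measure, lintegral_add_measure,
        lintegral_map hf (D.measurable_yM i), lintegral_map hf (D.measurable_zM i)]
    have lhs : ∫⁻ u, m u ∂D.mu =
        (6 : ℝ≥0∞)⁻¹ * (D.nu (W ∩ S) + D.nu W + D.nu W + D.nu (W ∩ S)) := by
      rw [mu, lintegral_smul_measure, lintegral_add_measure, expand m hm, expand m hm,
        lintegral_congr_ae ((fA 0).mono fun x h => h.1),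
        lintegral_congr_ae ((fA 0).mono fun x h => h.2.1),
        lintegral_congr_ae ((fA 0).mono fun x h => h.2.2),
        lintegral_congr_ae ((fA 1).mono fun x h => h.2.1),
        lintegral_congr_ae ((fA 1).mono fun x h => h.2.2)]
      simp [iW, iWS]
    have muV : ∫⁻ u, one u ∂D.mu = (6 : ℝ≥0∞)⁻¹ * D.nu W := by
      have zA : ∀ᵐ x ∂D.nu, one x = 0 :=
        D.ae_nu_mem.mono fun x hx => one_notB _ fun h => D.not_A_of_B h hx
      have zZ : ∀ i, ∀ᵐ x ∂D.nu, one (D.zM i x) = 0 := fun i =>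
        D.ae_nu_mem.mono fun x hx => by
          rw [D.zM_eq hx]
          exact one_notB _ fun h => D.not_B_Z h (mem_image_of_mem (D.z i) hx)
      have z1 : ∀ᵐ x ∂D.nu, one (D.yM 1 x) = 0 :=
        D.ae_nu_mem.mono fun x hx => by
          rw [D.yM_eq hx]
          exact one_notB _ fun h =>
            absurd (D.eq_of_B_B (mem_image_of_mem (D.y 1) hx) h) (by decide)
      have z0 : ∀ᵐ x ∂D.nu, one (D.yM 0 x) = W.indicator 1 x :=
        D.ae_nu_mem.mono fun x hx => by rw [D.yM_eq hx]; exact one_y x hx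
      rw [mu, lintegral_smul_measure, lintegral_add_measure, expand one hone, expand one hone,
        lintegral_congr_ae zA, lintegral_congr_ae z0, lintegral_congr_ae z1,
        lintegral_congr_ae (zZ 0), lintegral_congr_ae (zZ 1)]
      simp [iW]
    have rhs : ∫⁻ u, m u ∂D.mu = 3 * ((6 : ℝ≥0∞)⁻¹ * D.nu W) := by
      simp only [m, count]
      have hmT : Measurable fun u => one u + one (T u) := hone.add (hone.comp hT)
      rw [lintegral_add_left hmT, lintegral_add_left hone, ← lintegral_map hone hT, ← lintegral_map hone hU, hTm, hUm, muV]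
      ring
    rw [lhs] at rhs
    have e := congrArg ENNReal.toReal rhs
    simp only [ENNReal.toReal_mul, ENNReal.toReal_inv, ENNReal.toReal_ofNat,
      ENNReal.toReal_add (measure_ne_top D.nu _) (measure_ne_top D.nu _),
      ENNReal.toReal_add (ENNReal.add_ne_top.2 ⟨measure_ne_top D.nu _, measure_ne_top D.nu _⟩)
        (measure_ne_top D.nu _),
      ENNReal.toReal_add (ENNReal.add_ne_top.2 ⟨ENNReal.add_ne_top.2
        ⟨measure_ne_top D.nu _, measure_ne_top D.nu _⟩, measure_ne_top D.nu _⟩)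
        (measure_ne_top D.nu _)] at e
    linarith
  have hA1 : D.nu D.setA = 1 := (prob_compl_eq_zero_iff D.measurableSet_A).1 (ae_iff.1 D.ae_nu_mem)
  have k1 := key D.setA D.measurableSet_A subset_rfl
  have k2 := key (D.setA ∩ S) (D.measurableSet_A.inter hS) inter_subset_left
  rw [inter_assoc, inter_self] at k2
  rw [hA1, ENNReal.toReal_one] at k1
  linarith

end Clusters

/-- An absolutely continuous law with finite value and no optimal pair of maps. -/
theorem exists_counterexample :
    ∃ μ : Measure E3, IsProbabilityMeasure μ ∧ μ ≪ volume ∧ kantorovichValue μ < ⊤ ∧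
      ∀ T₂ T₃ : E3 → E3, Measurable T₂ → Measurable T₃ → μ.map T₂ = μ → μ.map T₃ = μ →
        ∫⁻ x, coulombCost (x, T₂ x, T₃ x) ∂μ ≠ kantorovichValue μ := by
  obtain ⟨D⟩ := exists_clusters
  exact ⟨D.mu, inferInstance, D.mu_ac, D.kantorovich_lt_top,
    fun T₂ T₃ h2 h3 e2 e3 => D.not_optimal h2 h3 e2 e3⟩

end Vale.Agent.P121
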